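import Mathlib.Order.Hom.Basic
import Mathlib.Data.Setoid.Basic
import Mathlib.Order.Interval.Set.OrdConnected
import Mathlib.Data.Finite.Defs

/-!
Finite algebras, congruences, representable lattices, inflations of convex sets.
-/

namespace Vale.Agent.P183

/-- A finite algebra: a nonempty finite carrier with finitely many finitary operations. -/
structure FiniteAlgebra where
  carrier : Type
  index : Type
  arity : index → ℕ
  op : (i : index) → (Fin (arity i) → carrier) → carrier
  finite_carrier : Finite carrier
  nonempty_carrier : Nonempty carrier
  finite_index : Finite index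

/-- A congruence is an equivalence relation compatible with every operation. -/
def FiniteAlgebra.IsCongruence (A : FiniteAlgebra) (r : Setoid A.carrier) : Prop :=
  ∀ (i : A.index) (x y : Fin (A.arity i) → A.carrier),
    (∀ j, r (x j) (y j)) → r (A.op i x) (A.op i y)

/-- The congruence lattice: all congruences ordered by inclusion. -/
abbrev FiniteAlgebra.Con (A : FiniteAlgebra) : Type := {r : Setoid A.carrier // A.IsCongruence r}

/-- `L` is representable: it is isomorphic, as an ordered set (equivalently as a lattice), to the
full congruence lattice of a finite algebra. -/
def Representable (L : Type) [LE L] : Prop := ∃ A : FiniteAlgebra, Nonempty (L ≃o A.Con)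

/-- Replace every element of `C ⊆ K` by a copy of `S`. -/
def Inflate (K S : Type) (C : Set K) : Type := {k : K // k ∉ C} ⊕ ({k : K // k ∈ C} × S)

/-- The order of the inflation: `x ≤ y` iff the underlying elements are comparable, and when both
elements lie over `C` also the `S`-components are comparable. -/
def Inflate.le {K S : Type} {C : Set K} [LE K] [LE S] : Inflate K S C → Inflate K S C → Prop
  | Sum.inl a, Sum.inl b => a.1 ≤ b.1
  | Sum.inl a, Sum.inr q => a.1 ≤ q.1.1
  | Sum.inr p, Sum.inl b => p.1.1 ≤ b.1
  | Sum.inr p, Sum.inr q => p.1.1 ≤ q.1.1 ∧ p.2 ≤ q.2

instance {K S : Type} {C : Set K} [LE K] [LE S] : LE (Inflate K S C) := ⟨Inflate.le⟩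

/-- Finite congruence normal lattices: the lattices obtained from a one-element lattice by
successive doublings (in the sense of Day) of convex subsets, up to isomorphism. -/
inductive CongruenceNormal : (L : Type) → [PartialOrder L] → Prop
  | point (L : Type) [PartialOrder L] [Unique L] : CongruenceNormal L
  | double (L K : Type) [PartialOrder L] [PartialOrder K] (C : Set K) (hC : C.OrdConnected)
      (e : L ≃o Inflate K Bool C) (hK : CongruenceNormal K) : CongruenceNormal L

end Vale.Agent.P183
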